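import Vale.Agent.P301.H98.L1
import Vale.Agent.P301.H98.Ibp

/-! P301, W-G: division of a weak equation with singular weight and right hand sides by a
holomorphic function. -/

open scoped ContDiff ComplexOrder ComplexConjugate Topology ENNReal
open MeasureTheory Set Filter Metric

noncomputable section

namespace Vale.Agent.P301.H479

open Vale.Agent.P272.K Vale.Agent.P301.H98

variable {d : ℕ}

section energy

/-- the energy density of `log (|s|² + t)` in the direction `l` -/
def ed (s : Cm d → ℂ) (l : Fin d) (t : ℝ) (z : Cm d) : ℝ :=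
  t * ‖dz l s z‖ ^ 2 / (‖s z‖ ^ 2 + t) ^ 2

lemma ed_nonneg (s : Cm d → ℂ) (l : Fin d) {t : ℝ} (ht : 0 < t) (z : Cm d) : 0 ≤ ed s l t z := by
  unfold ed; positivity

/-- uniform energy bound on `S` -/
def EB (s : Cm d → ℂ) (l : Fin d) (S : Set (Cm d)) : Prop :=
  ∃ K : ℝ≥0∞, K ≠ ⊤ ∧ ∀ t : ℝ, 0 < t → t ≤ 1 →
    ∫⁻ z in S, ENNReal.ofReal (ed s l t z) ≤ K

lemma lv_single (l : Fin d) (u : Cm d → ℝ) (z : Cm d) :
    lv (Pi.single l 1) u z = cHess u z l l := by
  unfold lv
  rw [Finset.sum_eq_single l]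
  · rw [Finset.sum_eq_single l]
    · simp
    · intro k _ hk
      simp [Pi.single_eq_of_ne hk]
    · simp
  · intro j _ hj
    simp [Pi.single_eq_of_ne hj]
  · simp

lemma cHess_ll {s : Cm d → ℂ} {z : Cm d} (hs : AnalyticAt ℂ s z) (l : Fin d) {t : ℝ}
    (ht : 0 < t) : cHess (lg s (fun _ => 0) t) z l l = ((ed s l t z : ℝ) : ℂ) := by
  rw [cHess_lg hs contDiffAt_const ht, C2.cHess_const]
  have hD : Dc s (fun _ => 0) z l = dz l s z := by
    unfold Dc
    have : (fun y : Cm d => (((fun _ => 0 : Cm d → ℝ) y : ℝ) : ℂ)) = fun _ => 0 := by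
      funext y; simp
    rw [this, C2.dz_const]
    simp
  simp only [Pm, Matrix.sub_apply, Matrix.smul_apply, Matrix.vecMulVec_apply, smul_eq_mul,
    Pi.star_apply, RCLike.star_def, Complex.mul_conj, Complex.normSq_eq_norm_sq, hD,
    Matrix.zero_apply, mul_zero, sub_zero]
  unfold cf ed nh
  simp only [neg_zero, Real.exp_zero, mul_one]
  push_cast
  ring

/-- local energy bound -/
theorem exists_EB {s : Cm d → ℂ} {a : Cm d} (hf : AnalyticAt ℂ s a)
    (h0 : ¬ ∀ᶠ z in 𝓝 a, s z = 0) : ∃ r > 0, ∀ l, EB s l (ball a r) := by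
  obtain ⟨R, hR, hint, hne⟩ := exists_log_integrable hf h0
  obtain ⟨R1, hR1, hra⟩ := Metric.eventually_nhds_iff_ball.1 hf.eventually_analyticAt
  obtain ⟨R0, hR0d⟩ : ∃ R0, R0 = min R R1 := ⟨_, rfl⟩
  have hR0 : 0 < R0 := by rw [hR0d]; exact lt_min hR hR1
  have hR0R : R0 ≤ R := by rw [hR0d]; exact min_le_left _ _
  have hR01 : R0 ≤ R1 := by rw [hR0d]; exact min_le_right _ _
  refine ⟨R0 / 4, by positivity, fun l => ?_⟩
  let χ : ContDiffBump a := ⟨R0 / 4, R0 / 2, by positivity, by linarith⟩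
  have hχs : ContDiff ℝ ∞ (χ : Cm d → ℝ) := χ.contDiff
  have hχc : HasCompactSupport (χ : Cm d → ℝ) := χ.hasCompactSupport
  have hχt : tsupport (χ : Cm d → ℝ) = closedBall a (R0 / 2) := χ.tsupport_eq
  have hsub : closedBall a (R0 / 2) ⊆ ball a R0 := closedBall_subset_ball (by linarith)
  have hχU : tsupport (χ : Cm d → ℝ) ⊆ ball a R0 := by rw [hχt]; exact hsub
  have han : ∀ z ∈ ball a R0, AnalyticAt ℂ s z := fun z hz => hra z (ball_subset_ball hR01 hz)
  have hcont : ContinuousOn s (closedBall a (R0 / 2)) := fun z hz =>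
    (han z (hsub hz)).continuousAt.continuousWithinAt
  obtain ⟨M, hM⟩ := (isCompact_closedBall a (R0 / 2)).exists_bound_of_continuousOn hcont
  have hLlv : Continuous (lv (Pi.single l 1) (χ : Cm d → ℝ)) := by
    unfold lv
    refine continuous_finsetSum _ fun j _ => continuous_finsetSum _ fun k _ =>
      continuous_const.mul ?_
    exact continuous_iff_continuousAt.2 fun z => (INT.smooth_cHess hχs.contDiffAt j k).continuousAt
  obtain ⟨C2', hC2⟩ := (isCompact_closedBall a (R0 / 2)).exists_bound_of_continuousOn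
    hLlv.continuousOn
  have hC20 : 0 ≤ C2' := (norm_nonneg _).trans (hC2 a (mem_closedBall_self (by positivity)))
  set L := Real.log (M ^ 2 + 1) with hL
  have hL0 : 0 ≤ L := Real.log_nonneg (by nlinarith [sq_nonneg M])
  set g : Cm d → ℝ := (closedBall a (R0 / 2)).indicator
    (fun z => C2' * (|Real.log (‖s z‖ ^ 2)| + L)) with hg
  have hgi : Integrable g := by
    rw [hg, integrable_indicator_iff measurableSet_closedBall]
    have h1 : IntegrableOn (fun z => |Real.log (‖s z‖ ^ 2)|) (closedBall a (R0 / 2)) :=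
      (hint.mono_set (hsub.trans (ball_subset_ball hR0R))).abs
    exact (h1.add (integrableOn_const (isCompact_closedBall a _).measure_lt_top.ne)).const_mul _
  refine ⟨ENNReal.ofReal (∫ z, g z), ENNReal.ofReal_ne_top, fun t ht ht1 => ?_⟩
  have huU : ∀ z ∈ ball a R0, ContDiffAt ℝ ∞ (lg s (fun _ => 0) t) z := fun z hz =>
    contDiff_lg (m := ⊤) (han z hz) contDiffAt_const ht
  have key := integral_parts (U := ball a R0) (χ := (χ : Cm d → ℝ)) (ψ := fun _ => 1)
    (u := lg s (fun _ => 0) t) (v := Pi.single l 1) hχs hχc hχU (fun z _ => contDiffAt_const)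
    huU (fun z _ => by simp only [Complex.ofReal_one]; unfold dv; simp)
  have hL1 : ∀ z, (((χ z * (fun _ => (1:ℝ)) z : ℝ)) : ℂ) * lv (Pi.single l 1)
      (lg s (fun _ => 0) t) z = ((χ z * ed s l t z : ℝ) : ℂ) := by
    intro z
    by_cases hz : z ∈ ball a R0
    · rw [lv_single, cHess_ll (han z hz) l ht]
      push_cast
      ring
    · have : χ z = 0 := image_eq_zero_of_notMem_tsupport fun h => hz (hχU h)
      simp [this]
  simp only [hL1] at key
  rw [integral_complex_ofReal] at key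
  -- the bound
  have hbd : ‖∫ z, (((fun _ => (1:ℝ)) z * lg s (fun _ => 0) t z : ℝ) : ℂ) *
      lv (Pi.single l 1) (χ : Cm d → ℝ) z‖ ≤ ∫ z, g z := by
    refine norm_integral_le_of_norm_le hgi ?_
    have hne' : ∀ᵐ z ∂(volume : Measure (Cm d)), z ∈ ball a R → s z ≠ 0 :=
      (ae_restrict_iff' measurableSet_ball).1 hne
    filter_upwards [hne'] with z hz
    by_cases hzc : z ∈ closedBall a (R0 / 2)
    · rw [hg, indicator_of_mem hzc, norm_mul, mul_comm]
      refine mul_le_mul (hC2 z hzc) ?_ (norm_nonneg _) hC20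
      rw [Complex.norm_real, Real.norm_eq_abs, one_mul, lg_zero]
      have h1 := hM z hzc
      have hs0 := hz (ball_subset_ball hR0R (hsub hzc))
      have h2 : 0 < ‖s z‖ ^ 2 := by positivity
      have h3 : ‖s z‖ ^ 2 ≤ M ^ 2 := by gcongr
      have h4 : Real.log (‖s z‖ ^ 2) ≤ Real.log (‖s z‖ ^ 2 + t) :=
        Real.log_le_log h2 (by linarith)
      have h5 : Real.log (‖s z‖ ^ 2 + t) ≤ L := Real.log_le_log (by positivity) (by linarith)
      rw [abs_le]
      constructor
      · have := neg_abs_le (Real.log (‖s z‖ ^ 2)); linarith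
      · have := abs_nonneg (Real.log (‖s z‖ ^ 2)); linarith
    · rw [hg, indicator_of_notMem hzc]
      have h6 : z ∉ tsupport (χ : Cm d → ℝ) := by rw [hχt]; exact hzc
      rw [lv_single, INT.cHess_zero_of_notMem h6]
      simp
  rw [← key, Complex.norm_real, Real.norm_eq_abs] at hbd
  have hedc : ContinuousOn (ed s l t) (ball a R0) := by
    intro z hz
    have h1 : ContinuousAt (dz l s) z :=
      (C2.contDiffAt_dz (m := 0) l (contDiff_f (m := 1) (han z hz)) (by norm_num)).continuousAt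
    have h2 : ContinuousAt s z := (han z hz).continuousAt
    refine ContinuousAt.continuousWithinAt ?_
    refine ContinuousAt.div (continuousAt_const.mul (h1.norm.pow 2)) ((h2.norm.pow 2).add
      continuousAt_const |>.pow 2) ?_
    positivity
  have hci : Integrable (fun z => χ z * ed s l t z) := by
    have h1 : IntegrableOn (fun z => χ z * ed s l t z) (closedBall a (R0 / 2)) :=
      (χ.continuous.continuousOn.mul (hedc.mono hsub)).integrableOn_compact
        (isCompact_closedBall a _)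
    refine (integrableOn_iff_integrable_of_support_subset fun z hz => ?_).1 h1
    rw [← hχt]
    refine subset_tsupport _ ?_
    intro h
    exact hz (by simp only [h, zero_mul])
  calc ∫⁻ z in ball a (R0 / 4), ENNReal.ofReal (ed s l t z)
      = ∫⁻ z in ball a (R0 / 4), ENNReal.ofReal (χ z * ed s l t z) := by
        refine setLIntegral_congr_fun measurableSet_ball fun z hz => ?_
        have : χ z = 1 := χ.one_of_mem_closedBall (ball_subset_closedBall hz)
        simp only [this, one_mul]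
    _ ≤ ∫⁻ z, ENNReal.ofReal (χ z * ed s l t z) := setLIntegral_le_lintegral _ _
    _ = ENNReal.ofReal (∫ z, χ z * ed s l t z) :=
        (ofReal_integral_eq_lintegral_ofReal hci (Eventually.of_forall fun z =>
          mul_nonneg χ.nonneg (ed_nonneg s l ht z))).symm
    _ ≤ ENNReal.ofReal (∫ z, g z) := ENNReal.ofReal_le_ofReal ((le_abs_self _).trans hbd)

/-- energy bound on compact sets -/
theorem EB_compact {s : Cm d → ℂ} {C : Set (Cm d)} (hC : IsCompact C)
    (hs : ∀ z ∈ C, AnalyticAt ℂ s z) (h0 : ∀ z ∈ C, ¬ ∀ᶠ y in 𝓝 z, s y = 0) (l : Fin d) :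
    EB s l C := by
  refine hC.induction_on (p := EB s l) ?_ ?_ ?_ ?_
  · exact ⟨0, ENNReal.zero_ne_top, fun t _ _ => by simp⟩
  · rintro S T hST ⟨K, hK, h⟩
    exact ⟨K, hK, fun t ht ht1 => (lintegral_mono_set hST).trans (h t ht ht1)⟩
  · rintro S T ⟨K, hK, h⟩ ⟨K', hK', h'⟩
    exact ⟨K + K', ENNReal.add_ne_top.2 ⟨hK, hK'⟩, fun t ht ht1 =>
      (lintegral_union_le _ _ _).trans (add_le_add (h t ht ht1) (h' t ht ht1))⟩
  · intro z hz
    obtain ⟨r, hr, h⟩ := exists_EB (hs z hz) (h0 z hz)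
    exact ⟨ball z r, mem_nhdsWithin_of_mem_nhds (ball_mem_nhds z hr), h l⟩

end energy

section reg

variable {s : Cm d → ℂ} {t : ℝ}

/-- regularised inverse of `s` -/
def rinv (s : Cm d → ℂ) (t : ℝ) (z : Cm d) : ℂ :=
  (starRingEnd ℂ) (s z) / (s z * (starRingEnd ℂ) (s z) + t)

lemma rden_eq (c : ℂ) : c * (starRingEnd ℂ) c + t = ((‖c‖ ^ 2 + t : ℝ) : ℂ) := by
  rw [Complex.mul_conj, Complex.normSq_eq_norm_sq]
  push_cast
  rfl

lemma rden_ne (ht : 0 < t) (c : ℂ) : c * (starRingEnd ℂ) c + t ≠ 0 := by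
  rw [rden_eq]
  exact_mod_cast (by positivity : (‖c‖ ^ 2 + t) ≠ 0)

lemma s_rinv (z : Cm d) : s z * rinv s t z = ((‖s z‖ ^ 2 / (‖s z‖ ^ 2 + t) : ℝ) : ℂ) := by
  unfold rinv
  rw [rden_eq, mul_div_assoc', Complex.mul_conj, Complex.normSq_eq_norm_sq]
  push_cast
  rfl

lemma norm_s_rinv (ht : 0 < t) (z : Cm d) : ‖s z * rinv s t z‖ ≤ 1 := by
  rw [s_rinv, Complex.norm_real, Real.norm_eq_abs, abs_of_nonneg (by positivity)]
  exact div_le_one_of_le₀ (by linarith) (by positivity)

lemma tendsto_s_rinv {z : Cm d} (h : s z ≠ 0) {t : ℕ → ℝ} (ht : Tendsto t atTop (𝓝 0)) :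
    Tendsto (fun n => s z * rinv s (t n) z) atTop (𝓝 1) := by
  simp only [s_rinv]
  have h1 : ‖s z‖ ^ 2 ≠ 0 := by positivity
  have h2 : Tendsto (fun n => ‖s z‖ ^ 2 / (‖s z‖ ^ 2 + t n)) atTop (𝓝 1) := by
    have h3 := (tendsto_const_nhds (x := ‖s z‖ ^ 2)).div
      ((tendsto_const_nhds (x := ‖s z‖ ^ 2)).add ht) (by rw [add_zero]; exact h1)
    rw [add_zero, div_self h1] at h3
    exact h3
  have h4 := (Complex.continuous_ofReal.tendsto 1).comp h2
  rw [Complex.ofReal_one] at h4
  exact h4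

/-- the size of the bad term -/
lemma norm_bad (ht : 0 < t) (z : Cm d) :
    ‖rinv s t z * (1 - s z * rinv s t z)‖ = t * ‖s z‖ / (‖s z‖ ^ 2 + t) ^ 2 := by
  have hp : 0 < ‖s z‖ ^ 2 + t := by positivity
  have h1 : 1 - s z * rinv s t z = ((t / (‖s z‖ ^ 2 + t) : ℝ) : ℂ) := by
    rw [s_rinv, ← Complex.ofReal_one, ← Complex.ofReal_sub]
    congr 1
    field_simp
    ring
  have h2 : ‖rinv s t z‖ = ‖s z‖ / (‖s z‖ ^ 2 + t) := by
    unfold rinv
    rw [rden_eq, norm_div, RCLike.norm_conj, Complex.norm_real, Real.norm_eq_abs,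
      abs_of_pos hp]
  rw [norm_mul, h1, h2, Complex.norm_real, Real.norm_eq_abs, abs_of_nonneg (by positivity)]
  field_simp

lemma contDiffAt_rinv (ht : 0 < t) {z : Cm d} (hs : ContDiffAt ℝ ∞ s z) :
    ContDiffAt ℝ ∞ (rinv s t) z := by
  have h1 : ContDiffAt ℝ ∞ (fun y => (starRingEnd ℂ) (s y)) z :=
    Complex.conjCLE.contDiff.contDiffAt.comp z hs
  have h2 : ContDiffAt ℝ ∞ (fun y => s y * (starRingEnd ℂ) (s y) + (t : ℂ)) z :=
    (hs.mul h1).add contDiffAt_const
  have h3 := h1.mul (h2.inv (rden_ne ht _))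
  refine h3.congr_of_eventuallyEq (Eventually.of_forall fun y => ?_)
  exact div_eq_mul_inv _ _

lemma dz_rinv (ht : 0 < t) {z : Cm d} (hs : ContDiffAt ℂ ω s z) (l : Fin d) :
    dz l (rinv s t) z = -(rinv s t z) ^ 2 * dz l s z := by
  have hsR : DifferentiableAt ℝ s z :=
    (hs.differentiableAt (by simp)).restrictScalars ℝ
  have hc : DifferentiableAt ℝ (fun y => (starRingEnd ℂ) (s y)) z :=
    Complex.conjCLE.differentiableAt.comp z hsR
  have hsS : ContDiffAt ℝ ∞ s z := (hs.restrict_scalars ℝ).of_le (by exact_mod_cast le_top)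
  have hk : DifferentiableAt ℝ (rinv s t) z :=
    (contDiffAt_rinv ht hsS).differentiableAt (by simp)
  have hden : DifferentiableAt ℝ (fun y => s y * (starRingEnd ℂ) (s y)) z := hsR.mul hc
  have hdc : dz l (fun y => (starRingEnd ℂ) (s y)) z = 0 := by
    rw [C2.dz_conj l hsR, INT.dzb_of_holo (hs.differentiableAt (by simp)), map_zero]
  have h1 : dz l (fun y => rinv s t y * (s y * (starRingEnd ℂ) (s y) + t)) z = 0 := by
    have : (fun y => rinv s t y * (s y * (starRingEnd ℂ) (s y) + t)) =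
        fun y => (starRingEnd ℂ) (s y) := by
      funext y
      exact div_mul_cancel₀ _ (rden_ne ht _)
    rw [this, hdc]
  have h2 : dz l (fun y => s y * (starRingEnd ℂ) (s y) + (t : ℂ)) z =
      dz l s z * (starRingEnd ℂ) (s z) := by
    rw [C2.dz_add l hden (differentiableAt_const _), C2.dz_mul l hsR hc, hdc, C2.dz_const]
    ring
  have hden' : DifferentiableAt ℝ (fun y => s y * (starRingEnd ℂ) (s y) + (t : ℂ)) z :=
    hden.add (differentiableAt_const _)
  rw [C2.dz_mul l hk hden', h2] at h1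
  have hne := rden_ne (t := t) ht (s z)
  have h3 : rinv s t z * (s z * (starRingEnd ℂ) (s z) + t) = (starRingEnd ℂ) (s z) :=
    div_mul_cancel₀ _ hne
  have h4 : dz l (rinv s t) z * (s z * (starRingEnd ℂ) (s z) + t) =
      (-(rinv s t z) ^ 2 * dz l s z) * (s z * (starRingEnd ℂ) (s z) + t) := by
    linear_combination h1 + rinv s t z * dz l s z * h3
  exact mul_right_cancel₀ hne h4

end reg

section ext

/-- extension of smooth functions by zero -/
lemma ext0_smooth {Ω C : Set (Cm d)} (hC : IsCompact C) (hCΩ : C ⊆ Ω) (hΩ : IsOpen Ω)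
    {V : Cm d → ℂ} (hV : ∀ z ∈ Ω, ContDiffAt ℝ ∞ V z) (hV0 : ∀ z ∈ Ω, z ∉ C → V z = 0) :
    ContDiff ℝ ∞ (Ω.indicator V) ∧ HasCompactSupport (Ω.indicator V) ∧
      tsupport (Ω.indicator V) ⊆ C ∧ ∀ z ∈ Ω, Ω.indicator V =ᶠ[𝓝 z] V := by
  have hsupp : Function.support (Ω.indicator V) ⊆ C := by
    intro z hz
    rw [Function.mem_support] at hz
    have hzd : z ∈ Ω := by
      by_contra h; exact hz (indicator_of_notMem h _)
    rw [indicator_of_mem hzd] at hz
    by_contra hne
    exact hz (hV0 z hzd hne)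
  have hts : tsupport (Ω.indicator V) ⊆ C := closure_minimal hsupp hC.isClosed
  have hev : ∀ z ∈ Ω, Ω.indicator V =ᶠ[𝓝 z] V := by
    intro z hz
    filter_upwards [hΩ.mem_nhds hz] with y hy
    exact indicator_of_mem hy _
  refine ⟨?_, hC.of_isClosed_subset (isClosed_tsupport _) hts, hts, hev⟩
  rw [contDiff_iff_contDiffAt]
  intro z
  by_cases hz : z ∈ Ω
  · exact (hV z hz).congr_of_eventuallyEq (hev z hz)
  · exact contDiffAt_const.congr_of_eventuallyEq
      (notMem_tsupport_iff_eventuallyEq.1 fun h => hz (hCΩ (hts h)))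

/-- a locally integrable weight times a continuous function with compact support -/
lemma integrable_cpt {Ω C : Set (Cm d)} {f : Cm d → ℝ} (hΩ : IsOpen Ω) (hC : IsCompact C)
    (hCd : C ⊆ Ω)
    (hf : ∀ K ⊆ Ω, IsCompact K → IntegrableOn f K) {G : Cm d → ℂ}
    (hG : ContinuousOn G Ω) (hG0 : ∀ z ∈ Ω, z ∉ C → G z = 0) :
    IntegrableOn (fun z => (f z : ℂ) * G z) Ω := by
  obtain ⟨b, hb⟩ := hC.exists_bound_of_continuousOn (hG.mono hCd)
  have h2 : IntegrableOn (fun z => (f z : ℂ) * G z) C :=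
    ((hf C hCd hC).ofReal).mul_bdd ((hG.mono hCd).aestronglyMeasurable hC.measurableSet)
      ((ae_restrict_iff' hC.measurableSet).2 (Eventually.of_forall hb))
  refine h2.of_forall_sdiff_eq_zero hΩ.measurableSet fun z hz => ?_
  rw [hG0 z hz.1 hz.2, mul_zero]

end ext

/-- the bad term tends to zero -/
theorem tendsto_bad {C : Set (Cm d)} (hC : IsCompact C) {f : Cm d → ℝ}
    (hf : IntegrableOn f C) (hf2 : IntegrableOn (fun z => f z ^ 2) C) {s : Cm d → ℂ}
    (hs : ∀ z ∈ C, AnalyticAt ℂ s z) (l : Fin d) (hE : EB s l C)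
    (h0 : ∀ᵐ z ∂(volume.restrict C), s z ≠ 0) {t : ℕ → ℝ} (htp : ∀ n, 0 < t n)
    (ht1 : ∀ n, t n ≤ 1) (ht : Tendsto t atTop (𝓝 0)) :
    Tendsto (fun n => ∫⁻ z in C, ENNReal.ofReal
      (|f z| * (t n * ‖s z‖ / (‖s z‖ ^ 2 + t n) ^ 2 * ‖dz l s z‖))) atTop (𝓝 0) := by
  obtain ⟨K, hK, hE⟩ := hE
  set x : ℕ → Cm d → ℝ := fun n z => |f z| * (√(t n) * ‖s z‖ / (‖s z‖ ^ 2 + t n)) with hx
  set y : ℕ → Cm d → ℝ := fun n z => √(t n) * ‖dz l s z‖ / (‖s z‖ ^ 2 + t n) with hy
  have hx0 : ∀ n z, 0 ≤ x n z := fun n z => by have := htp n; simp only [hx]; positivity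
  have hy0 : ∀ n z, 0 ≤ y n z := fun n z => by have := htp n; simp only [hy]; positivity
  have hxy : ∀ n z, |f z| * (t n * ‖s z‖ / (‖s z‖ ^ 2 + t n) ^ 2 * ‖dz l s z‖) =
      x n z * y n z := by
    intro n z
    have hp : 0 < ‖s z‖ ^ 2 + t n := by have := htp n; positivity
    have hst : √(t n) * √(t n) = t n := Real.mul_self_sqrt (htp n).le
    have e : |f z| * (√(t n) * ‖s z‖ / (‖s z‖ ^ 2 + t n)) * (√(t n) * ‖dz l s z‖ /
        (‖s z‖ ^ 2 + t n)) = |f z| * ((√(t n) * √(t n)) * ‖s z‖ / (‖s z‖ ^ 2 + t n) ^ 2 *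
        ‖dz l s z‖) := by
      generalize ‖s z‖ ^ 2 + t n = D
      rw [sq, ← div_div]
      ring
    simp only [hx, hy]
    rw [e, hst]
  have hsc : ContinuousOn s C := fun z hz => (hs z hz).continuousAt.continuousWithinAt
  have hdc : ContinuousOn (dz l s) C := fun z hz =>
    (C2.contDiffAt_dz (m := 0) l (contDiff_f (m := 1) (hs z hz))
      (by norm_num)).continuousAt.continuousWithinAt
  have hfm : AEMeasurable f (volume.restrict C) := hf.aestronglyMeasurable.aemeasurable
  have hsm : AEMeasurable s (volume.restrict C) := hsc.aemeasurable hC.measurableSet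
  have hdm : AEMeasurable (dz l s) (volume.restrict C) := hdc.aemeasurable hC.measurableSet
  have hxm : ∀ n, AEMeasurable (x n) (volume.restrict C) := fun n =>
    hfm.norm.mul ((hsm.norm.const_mul _).div ((hsm.norm.pow_const 2).add_const _))
  have hym : ∀ n, AEMeasurable (y n) (volume.restrict C) := fun n =>
    (hdm.norm.const_mul _).div ((hsm.norm.pow_const 2).add_const _)
  have hysq : ∀ n, ∫⁻ z in C, ENNReal.ofReal (y n z) ^ (2:ℝ) ≤ K := by
    intro n
    refine le_trans (le_of_eq ?_) (hE (t n) (htp n) (ht1 n))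
    refine lintegral_congr fun z => ?_
    rw [ENNReal.rpow_two, ← ENNReal.ofReal_pow (hy0 n z)]
    congr 1
    simp only [hy, ed]
    rw [div_pow, mul_pow, Real.sq_sqrt (htp n).le]
  have hb : ∀ n z, (√(t n) * ‖s z‖ / (‖s z‖ ^ 2 + t n)) ^ 2 ≤ 1 := by
    intro n z
    have hp : 0 < ‖s z‖ ^ 2 + t n := by have := htp n; positivity
    rw [div_pow, div_le_one (by positivity), mul_pow, Real.sq_sqrt (htp n).le]
    nlinarith [sq_nonneg (‖s z‖ ^ 2 - t n), sq_nonneg (‖s z‖), (htp n),
      mul_nonneg (sq_nonneg ‖s z‖) (htp n).le]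
  have hxlim : Tendsto (fun n => ∫ z in C, x n z ^ 2) atTop (𝓝 (∫ z in C, (0:ℝ))) := by
    refine tendsto_integral_of_dominated_convergence (fun z => f z ^ 2)
      (fun n => ((hxm n).pow_const 2).aestronglyMeasurable) hf2
      (fun n => Eventually.of_forall fun z => ?_) ?_
    · simp only [hx]
      rw [Real.norm_eq_abs, abs_of_nonneg (by positivity), mul_pow, sq_abs]
      exact mul_le_of_le_one_right (sq_nonneg _) (hb n z)
    · filter_upwards [h0] with z hz
      have h1 : Tendsto (fun n => √(t n)) atTop (𝓝 0) := by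
        have := (Real.continuous_sqrt.tendsto 0).comp ht
        rw [Real.sqrt_zero] at this
        exact this
      have h2 : ‖s z‖ ^ 2 ≠ 0 := by positivity
      have h3 : Tendsto (fun n => |f z| * (√(t n) * ‖s z‖ / (‖s z‖ ^ 2 + t n))) atTop
          (𝓝 (|f z| * (0 * ‖s z‖ / (‖s z‖ ^ 2 + 0)))) :=
        ((h1.mul_const _).div (tendsto_const_nhds.add ht) (by rw [add_zero]; exact h2)).const_mul _
      rw [zero_mul, zero_div, mul_zero] at h3
      have h4 := h3.pow 2
      rw [zero_pow two_ne_zero] at h4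
      exact h4
  rw [integral_zero] at hxlim
  have hxi : ∀ n, IntegrableOn (fun z => x n z ^ 2) C := by
    intro n
    refine hf2.mono' ((hxm n).pow_const 2).aestronglyMeasurable (Eventually.of_forall fun z => ?_)
    simp only [hx]
    rw [Real.norm_eq_abs, abs_of_nonneg (by positivity), mul_pow, sq_abs]
    exact mul_le_of_le_one_right (sq_nonneg _) (hb n z)
  have hxl : Tendsto (fun n => ∫⁻ z in C, ENNReal.ofReal (x n z) ^ (2:ℝ)) atTop (𝓝 0) := by
    have h1 : ∀ n, ∫⁻ z in C, ENNReal.ofReal (x n z) ^ (2:ℝ) =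
        ENNReal.ofReal (∫ z in C, x n z ^ 2) := by
      intro n
      rw [ofReal_integral_eq_lintegral_ofReal (hxi n) (Eventually.of_forall fun z => sq_nonneg _)]
      refine lintegral_congr fun z => ?_
      rw [ENNReal.rpow_two, ← ENNReal.ofReal_pow (hx0 n z)]
    simp only [h1]
    have := ENNReal.tendsto_ofReal hxlim
    rwa [ENNReal.ofReal_zero] at this
  have hub : Tendsto (fun n => (∫⁻ z in C, ENNReal.ofReal (x n z) ^ (2:ℝ)) ^ (1 / (2:ℝ)) *
      K ^ (1 / (2:ℝ))) atTop (𝓝 0) := by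
    have h1 := (ENNReal.continuous_rpow_const (y := 1 / (2:ℝ))).tendsto 0 |>.comp hxl
    have h2 : ((0:ℝ≥0∞)) ^ (1 / (2:ℝ)) = 0 := ENNReal.zero_rpow_of_pos (by norm_num)
    rw [h2] at h1
    have h3 := ENNReal.Tendsto.mul_const h1 (b := K ^ (1 / (2:ℝ)))
      (Or.inr (ENNReal.rpow_ne_top_of_nonneg (by norm_num) hK))
    rw [zero_mul] at h3
    exact h3
  refine tendsto_of_tendsto_of_tendsto_of_le_of_le tendsto_const_nhds hub
    (fun _ => zero_le) fun n => ?_
  have h1 := ENNReal.lintegral_mul_le_Lp_mul_Lq (volume.restrict C)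
    (p := 2) (q := 2) Real.HolderConjugate.two_two
    (hxm n).ennreal_ofReal (hym n).ennreal_ofReal
  refine le_trans (le_of_eq ?_) (h1.trans (mul_le_mul' le_rfl
    (ENNReal.rpow_le_rpow (hysq n) (by norm_num))))
  refine lintegral_congr fun z => ?_
  rw [hxy, ENNReal.ofReal_mul (hx0 n z)]
  rfl

section main

variable {A : Type*} [Fintype A] {Ω : Set (Cm d)} {f : Cm d → ℝ} {s : Cm d → ℂ}
variable {U : A → Fin d → Cm d → ℂ} {γ : A → Cm d → ℂ} {B : Fin d → Cm d → ℂ}
variable {Hα : A → Cm d → ℂ} {H : Cm d → ℂ}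

/-- the weak equation `∫ f (∑ B_l ∂_l ξ + H ξ) = 0` for all test functions -/
def WEq (Ω : Set (Cm d)) (f : Cm d → ℝ) (B : Fin d → Cm d → ℂ) (H : Cm d → ℂ) : Prop :=
  ∀ ξ : Cm d → ℂ, ContDiff ℝ ∞ ξ → HasCompactSupport ξ → tsupport ξ ⊆ Ω →
    ∫ z in Ω, (f z : ℂ) * (∑ l, B l z * dz l ξ z + H z * ξ z) = 0

/-- **Division of a weak equation with right hand sides.**  The weight is in `L²_loc`. -/
theorem div_local (hΩ : IsOpen Ω) (hf : ∀ K ⊆ Ω, IsCompact K → IntegrableOn f K)
    (hf2 : ∀ K ⊆ Ω, IsCompact K → IntegrableOn (fun z => f z ^ 2) K)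
    (hs : ∀ z ∈ Ω, ContDiffAt ℂ ω s z) (hs0 : ∀ᵐ z ∂(volume.restrict Ω), s z ≠ 0)
    (hU : ∀ α l, ContinuousOn (U α l) Ω) (hγ : ∀ α, ∀ z ∈ Ω, ContDiffAt ℝ ∞ (γ α) z)
    (hB : ∀ l, ContinuousOn (B l) Ω) (hHα : ∀ α, ContinuousOn (Hα α) Ω) (hH : ContinuousOn H Ω)
    (hrel : ∀ z ∈ Ω, ∀ l, s z * B l z = ∑ α, γ α z * U α l z)
    (hrel' : ∀ z ∈ Ω, ∑ α, ∑ l, U α l z * dz l (γ α) z + ∑ α, γ α z * Hα α z =
      ∑ l, B l z * dz l s z + s z * H z)
    (hW : ∀ α, WEq Ω f (U α) (Hα α)) : WEq Ω f B H := by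
  intro ξ hξ hξc hξΩ
  have toR : ∀ {F : Cm d → ℂ} {z : Cm d}, ContDiffAt ℂ ω F z → ContDiffAt ℝ ∞ F z :=
    fun h => (h.restrict_scalars ℝ).of_le (by exact_mod_cast le_top)
  have cdz : ∀ {F : Cm d → ℂ} {z : Cm d} (l : Fin d), ContDiffAt ℝ ∞ F z →
      ContinuousAt (dz l F) z := fun l h =>
    (C2.contDiffAt_dz (m := 0) l (h.of_le (by norm_cast)) (by norm_num)).continuousAt
  have hξz : ∀ z ∈ Ω, z ∉ tsupport ξ → ξ z = 0 := fun z _ h => image_eq_zero_of_notMem_tsupport h
  -- the identity for multiples of `s`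
  have step : ∀ k : Cm d → ℂ, (∀ z ∈ Ω, ContDiffAt ℝ ∞ k z) →
      ∫ z in Ω, (f z : ℂ) * (∑ l, s z * B l z * (dz l k z * ξ z + k z * dz l ξ z) +
        k z * (∑ l, B l z * dz l s z + s z * H z) * ξ z) = 0 := by
    intro k hk
    have hte := fun α => ext0_smooth (Ω := Ω) (C := tsupport ξ) hξc hξΩ hΩ
      (V := fun z => γ α z * (k z * ξ z))
      (fun z hz => (hγ α z hz).mul ((hk z hz).mul hξ.contDiffAt))
      (fun z hz h => by simp only [hξz z hz h, mul_zero])
    have h1 := fun α => hW α _ (hte α).1 (hte α).2.1 ((hte α).2.2.1.trans hξΩ)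
    have hI : ∀ α, IntegrableOn (fun z => (f z : ℂ) * (∑ l, U α l z *
        dz l (Ω.indicator fun z => γ α z * (k z * ξ z)) z +
        Hα α z * (Ω.indicator fun z => γ α z * (k z * ξ z)) z)) Ω := by
      intro α
      refine integrable_cpt hΩ hξc hξΩ hf (ContinuousOn.add ?_ ?_) fun z hz h => ?_
      · exact continuousOn_finsetSum _ fun l _ => (hU α l).mul fun z hz =>
          (cdz l (hte α).1.contDiffAt).continuousWithinAt
      · exact (hHα α).mul (hte α).1.continuous.continuousOn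
      · have h3 : (Ω.indicator fun z => γ α z * (k z * ξ z)) =ᶠ[𝓝 z] fun _ => 0 :=
          notMem_tsupport_iff_eventuallyEq.1 fun h' => h ((hte α).2.2.1 h')
        simp only [C2.dz_congr _ h3, C2.dz_const, mul_zero, Finset.sum_const_zero, zero_add]
        rw [h3.self_of_nhds, mul_zero]
    have h2 : ∫ z in Ω, ∑ α, (f z : ℂ) * (∑ l, U α l z *
        dz l (Ω.indicator fun z => γ α z * (k z * ξ z)) z +
        Hα α z * (Ω.indicator fun z => γ α z * (k z * ξ z)) z) = 0 := by
      rw [integral_finsetSum _ fun α _ => hI α]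
      exact Finset.sum_eq_zero fun α _ => h1 α
    rw [← h2]
    refine setIntegral_congr_fun hΩ.measurableSet fun z hz => ?_
    have hd : ∀ α l, dz l (Ω.indicator fun z => γ α z * (k z * ξ z)) z =
        dz l (γ α) z * (k z * ξ z) + γ α z * (dz l k z * ξ z + k z * dz l ξ z) := by
      intro α l
      have e1 : DifferentiableAt ℝ (γ α) z := (hγ α z hz).differentiableAt (by simp)
      have e2 : DifferentiableAt ℝ k z := (hk z hz).differentiableAt (by simp)
      have e3 : DifferentiableAt ℝ ξ z := hξ.contDiffAt.differentiableAt (by simp)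
      have e4 : DifferentiableAt ℝ (fun y => k y * ξ y) z := e2.mul e3
      rw [C2.dz_congr l ((hte α).2.2.2 z hz), C2.dz_mul l e1 e4, C2.dz_mul l e2 e3]
    simp only [hd, indicator_of_mem hz]
    rw [← Finset.mul_sum]
    congr 1
    have e1 : ∀ α, ∑ l, U α l z * (dz l (γ α) z * (k z * ξ z) +
        γ α z * (dz l k z * ξ z + k z * dz l ξ z)) + Hα α z * (γ α z * (k z * ξ z)) =
        (k z * ξ z) * (∑ l, U α l z * dz l (γ α) z) + (k z * ξ z) * (γ α z * Hα α z) +
          ∑ l, (γ α z * U α l z) * (dz l k z * ξ z + k z * dz l ξ z) := by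
      intro α
      rw [Finset.mul_sum, add_right_comm, ← Finset.sum_add_distrib]
      congr 1
      · exact Finset.sum_congr rfl fun l _ => by ring
      · ring
    have e2 : ∑ l, s z * B l z * (dz l k z * ξ z + k z * dz l ξ z) =
        ∑ α, ∑ l, (γ α z * U α l z) * (dz l k z * ξ z + k z * dz l ξ z) := by
      rw [Finset.sum_comm]
      refine Finset.sum_congr rfl fun l _ => ?_
      rw [hrel z hz l, ← Finset.sum_mul]
    rw [Finset.sum_congr rfl fun α _ => e1 α, Finset.sum_add_distrib, Finset.sum_add_distrib, e2,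
      ← Finset.mul_sum, ← Finset.mul_sum, ← mul_add, hrel' z hz]
    ring
  -- regularisation
  set t : ℕ → ℝ := fun n => 1 / ((n : ℝ) + 1) with ht
  have htp : ∀ n, 0 < t n := fun n => by positivity
  have ht1 : ∀ n, t n ≤ 1 := fun n => by
    simp only [ht]
    rw [div_le_one (by positivity)]
    have : (0:ℝ) ≤ n := Nat.cast_nonneg n
    linarith
  have ht0 : Tendsto t atTop (𝓝 0) := tendsto_one_div_add_atTop_nhds_zero_nat
  set P : Cm d → ℂ := fun z => ∑ l, B l z * dz l ξ z + H z * ξ z with hP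
  set Q : Cm d → ℂ := fun z => (∑ l, B l z * dz l s z) * ξ z with hQ
  have hkc : ∀ n, ContinuousOn (rinv s (t n)) Ω := fun n z hz =>
    (contDiffAt_rinv (htp n) (toR (hs z hz))).continuousAt.continuousWithinAt
  have hsc : ContinuousOn s Ω := fun z hz => (toR (hs z hz)).continuousAt.continuousWithinAt
  have hPc : ContinuousOn P Ω := ContinuousOn.add
    (continuousOn_finsetSum _ fun l _ => (hB l).mul fun z _ =>
      (cdz l hξ.contDiffAt).continuousWithinAt) (hH.mul hξ.continuous.continuousOn)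
  have hQc : ContinuousOn Q Ω := ContinuousOn.mul
    (continuousOn_finsetSum _ fun l _ => (hB l).mul fun z hz =>
      (cdz l (toR (hs z hz))).continuousWithinAt) hξ.continuous.continuousOn
  have hP0 : ∀ z ∈ Ω, z ∉ tsupport ξ → P z = 0 := fun z _ h => by
    have h3 : ξ =ᶠ[𝓝 z] fun _ => 0 := notMem_tsupport_iff_eventuallyEq.1 h
    simp only [hP, C2.dz_congr _ h3, C2.dz_const, mul_zero, Finset.sum_const_zero,
      h3.self_of_nhds, add_zero]
  have hQ0 : ∀ z ∈ Ω, z ∉ tsupport ξ → Q z = 0 := fun z hz h => by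
    simp only [hQ, hξz z hz h, mul_zero]
  have hIP : IntegrableOn (fun z => (f z : ℂ) * P z) Ω := integrable_cpt hΩ hξc hξΩ hf hPc hP0
  have hIPn : ∀ n, IntegrableOn (fun z => (s z * rinv s (t n) z) * ((f z : ℂ) * P z)) Ω := by
    intro n
    have h1 := integrable_cpt hΩ hξc hξΩ hf (G := fun z => (s z * rinv s (t n) z) * P z)
      ((hsc.mul (hkc n)).mul hPc) fun z hz h => by rw [hP0 z hz h, mul_zero]
    refine h1.congr_fun (fun z _ => ?_) hΩ.measurableSet
    simp only []
    ring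
  have hIQn : ∀ n, IntegrableOn (fun z => (f z : ℂ) *
      ((rinv s (t n) z * (1 - s z * rinv s (t n) z)) * Q z)) Ω := by
    intro n
    exact integrable_cpt hΩ hξc hξΩ hf
      (((hkc n).mul (continuousOn_const.sub (hsc.mul (hkc n)))).mul hQc)
      fun z hz h => by rw [hQ0 z hz h, mul_zero]
  have hn : ∀ n, (∫ z in Ω, (s z * rinv s (t n) z) * ((f z : ℂ) * P z)) +
      ∫ z in Ω, (f z : ℂ) * ((rinv s (t n) z * (1 - s z * rinv s (t n) z)) * Q z) = 0 := by
    intro n
    rw [← integral_add (hIPn n) (hIQn n),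
      ← step (rinv s (t n)) fun z hz => contDiffAt_rinv (htp n) (toR (hs z hz))]
    refine setIntegral_congr_fun hΩ.measurableSet fun z hz => ?_
    simp only [hP, hQ, dz_rinv (htp n) (hs z hz)]
    have e1 : ∑ l, s z * B l z * (-rinv s (t n) z ^ 2 * dz l s z * ξ z +
        rinv s (t n) z * dz l ξ z) = (s z * rinv s (t n) z) * ∑ l, B l z * dz l ξ z -
        (s z * rinv s (t n) z ^ 2) * ((∑ l, B l z * dz l s z) * ξ z) := by
      rw [Finset.mul_sum, Finset.sum_mul, Finset.mul_sum, ← Finset.sum_sub_distrib]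
      exact Finset.sum_congr rfl fun l _ => by ring
    rw [e1]
    ring
  -- the good term
  have hgood : Tendsto (fun n => ∫ z in Ω, (s z * rinv s (t n) z) * ((f z : ℂ) * P z)) atTop
      (𝓝 (∫ z in Ω, (f z : ℂ) * P z)) := by
    refine tendsto_integral_of_dominated_convergence
      (fun z => ‖(f z : ℂ) * P z‖) (fun n => (hIPn n).aestronglyMeasurable) hIP.norm
      (fun n => Eventually.of_forall fun z => ?_) ?_
    · rw [norm_mul]
      exact mul_le_of_le_one_left (norm_nonneg _) (norm_s_rinv (htp n) z)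
    · filter_upwards [hs0] with z hz
      have h2 := (tendsto_s_rinv hz ht0).mul_const ((f z : ℂ) * P z)
      rwa [one_mul] at h2
  -- the bad term
  have hnl : ∀ z ∈ Ω, ¬ ∀ᶠ y in 𝓝 z, s y = 0 := by
    intro z hz hcon
    obtain ⟨r, hr, hr0⟩ := Metric.eventually_nhds_iff_ball.1 (hcon.and (hΩ.mem_nhds hz))
    have h1 : ∀ᵐ y ∂(volume : Measure (Cm d)), y ∈ Ω → s y ≠ 0 :=
      (ae_restrict_iff' hΩ.measurableSet).1 hs0
    have h2 : volume (ball z r) = 0 := by
      refine measure_mono_null ?_ (ae_iff.1 h1)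
      intro y hy
      have := hr0 y hy
      simp only [mem_ofPred_eq, not_forall, not_not]
      exact ⟨this.2, this.1⟩
    exact (measure_ball_pos volume z hr).ne' h2
  have hbad : Tendsto (fun n => ∫ z in Ω, (f z : ℂ) *
      ((rinv s (t n) z * (1 - s z * rinv s (t n) z)) * Q z)) atTop (𝓝 0) := by
    set C := tsupport ξ with hCdef
    have hCc : IsCompact C := hξc
    have hM : ∀ l, ∃ M : ℝ, 0 ≤ M ∧ ∀ z ∈ C, ‖B l z * ξ z‖ ≤ M := by
      intro l
      obtain ⟨M, hM⟩ := hCc.exists_bound_of_continuousOn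
        (((hB l).mul hξ.continuous.continuousOn).mono hξΩ)
      exact ⟨|M|, abs_nonneg _, fun z hz => (hM z hz).trans (le_abs_self _)⟩
    choose M hM0 hM using hM
    have han : ∀ z ∈ C, AnalyticAt ℂ s z := fun z hz => (hs z (hξΩ hz)).analyticAt
    have hT := fun l => tendsto_bad hCc (hf C hξΩ hCc) (hf2 C hξΩ hCc) han l
      (EB_compact hCc han (fun z hz => hnl z (hξΩ hz)) l)
      (ae_restrict_of_ae_restrict_of_subset hξΩ hs0) htp ht1 ht0
    have hsum : Tendsto (fun n => ∑ l, ENNReal.ofReal (M l) * ∫⁻ z in C, ENNReal.ofReal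
        (|f z| * (t n * ‖s z‖ / (‖s z‖ ^ 2 + t n) ^ 2 * ‖dz l s z‖))) atTop (𝓝 0) := by
      have h1 : Tendsto (fun n => ∑ l, ENNReal.ofReal (M l) * ∫⁻ z in C, ENNReal.ofReal
          (|f z| * (t n * ‖s z‖ / (‖s z‖ ^ 2 + t n) ^ 2 * ‖dz l s z‖))) atTop
          (𝓝 (∑ l : Fin d, ENNReal.ofReal (M l) * 0)) :=
        tendsto_finsetSum _ fun l _ => ENNReal.Tendsto.const_mul (hT l)
          (Or.inr ENNReal.ofReal_ne_top)
      simpa using h1
    rw [tendsto_zero_iff_norm_tendsto_zero]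
    have hkey : ∀ n, ENNReal.ofReal ‖∫ z in Ω, (f z : ℂ) *
        ((rinv s (t n) z * (1 - s z * rinv s (t n) z)) * Q z)‖ ≤
        ∑ l, ENNReal.ofReal (M l) * ∫⁻ z in C, ENNReal.ofReal
        (|f z| * (t n * ‖s z‖ / (‖s z‖ ^ 2 + t n) ^ 2 * ‖dz l s z‖)) := by
      intro n
      have e0 : ∫ z in Ω, (f z : ℂ) * ((rinv s (t n) z * (1 - s z * rinv s (t n) z)) * Q z) =
          ∫ z in C, (f z : ℂ) * ((rinv s (t n) z * (1 - s z * rinv s (t n) z)) * Q z) := by
        refine setIntegral_eq_of_subset_of_forall_sdiff_eq_zero hΩ.measurableSet hξΩ fun z hz => ?_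
        rw [hQ0 z hz.1 hz.2, mul_zero, mul_zero]
      rw [e0]
      have hfm : AEMeasurable f (volume.restrict C) :=
        (hf C hξΩ hCc).aestronglyMeasurable.aemeasurable
      have hsm : AEMeasurable s (volume.restrict C) :=
        (hsc.mono hξΩ).aemeasurable hCc.measurableSet
      have hdm : ∀ l, AEMeasurable (dz l s) (volume.restrict C) := fun l =>
        ContinuousOn.aemeasurable (fun z hz => (cdz l (toR (hs z (hξΩ hz)))).continuousWithinAt)
          hCc.measurableSet
      have hmeas : ∀ l, AEMeasurable (fun z => ENNReal.ofReal (M l) * ENNReal.ofReal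
          (|f z| * (t n * ‖s z‖ / (‖s z‖ ^ 2 + t n) ^ 2 * ‖dz l s z‖)))
          (volume.restrict C) := fun l =>
        (hfm.norm.mul (((hsm.norm.const_mul _).div
          (((hsm.norm.pow_const 2).add_const _).pow_const 2)).mul
          (hdm l).norm)).ennreal_ofReal.const_mul _
      calc ENNReal.ofReal ‖∫ z in C, (f z : ℂ) *
            ((rinv s (t n) z * (1 - s z * rinv s (t n) z)) * Q z)‖
          ≤ ∫⁻ z in C, ENNReal.ofReal ‖(f z : ℂ) *
            ((rinv s (t n) z * (1 - s z * rinv s (t n) z)) * Q z)‖ := by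
            simpa only [← ofReal_norm] using enorm_integral_le_lintegral_enorm (μ :=
              volume.restrict C) fun z => (f z : ℂ) *
              ((rinv s (t n) z * (1 - s z * rinv s (t n) z)) * Q z)
        _ ≤ ∫⁻ z in C, ∑ l, ENNReal.ofReal (M l) * ENNReal.ofReal
            (|f z| * (t n * ‖s z‖ / (‖s z‖ ^ 2 + t n) ^ 2 * ‖dz l s z‖)) := by
            refine setLIntegral_mono_ae' hCc.measurableSet (Eventually.of_forall fun z hz => ?_)
            have hp : 0 < ‖s z‖ ^ 2 + t n := by have := htp n; positivity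
            have e1 : ∀ l, ENNReal.ofReal (M l) * ENNReal.ofReal
                (|f z| * (t n * ‖s z‖ / (‖s z‖ ^ 2 + t n) ^ 2 * ‖dz l s z‖)) =
                ENNReal.ofReal (M l *
                (|f z| * (t n * ‖s z‖ / (‖s z‖ ^ 2 + t n) ^ 2 * ‖dz l s z‖))) := fun l =>
              (ENNReal.ofReal_mul (hM0 l)).symm
            simp only [e1]
            rw [← ENNReal.ofReal_sum_of_nonneg fun l _ => by
              have := htp n; have := hM0 l; positivity]
            refine ENNReal.ofReal_le_ofReal ?_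
            rw [norm_mul, norm_mul, norm_bad (htp n), Complex.norm_real, Real.norm_eq_abs]
            have e2 : ‖Q z‖ ≤ ∑ l, M l * ‖dz l s z‖ := by
              simp only [hQ]
              rw [Finset.sum_mul]
              refine (norm_sum_le _ _).trans (Finset.sum_le_sum fun l _ => ?_)
              have e3 : B l z * dz l s z * ξ z = (B l z * ξ z) * dz l s z := by ring
              rw [e3, norm_mul]
              exact mul_le_mul_of_nonneg_right (hM l z hz) (norm_nonneg _)
            have h3 : 0 ≤ |f z| * (t n * ‖s z‖ / (‖s z‖ ^ 2 + t n) ^ 2) := by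
              have := htp n; positivity
            calc |f z| * (t n * ‖s z‖ / (‖s z‖ ^ 2 + t n) ^ 2 * ‖Q z‖)
                = (|f z| * (t n * ‖s z‖ / (‖s z‖ ^ 2 + t n) ^ 2)) * ‖Q z‖ := by ring
              _ ≤ (|f z| * (t n * ‖s z‖ / (‖s z‖ ^ 2 + t n) ^ 2)) * ∑ l, M l * ‖dz l s z‖ :=
                  mul_le_mul_of_nonneg_left e2 h3
              _ = _ := by
                  rw [Finset.mul_sum]
                  exact Finset.sum_congr rfl fun l _ => by ring
        _ = ∑ l, ENNReal.ofReal (M l) * ∫⁻ z in C, ENNReal.ofReal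
            (|f z| * (t n * ‖s z‖ / (‖s z‖ ^ 2 + t n) ^ 2 * ‖dz l s z‖)) := by
            rw [lintegral_finsetSum' _ fun l _ => hmeas l]
            exact Finset.sum_congr rfl fun l _ => lintegral_const_mul' _ _ ENNReal.ofReal_ne_top
    have h5 : Tendsto (fun n => ENNReal.ofReal ‖∫ z in Ω, (f z : ℂ) *
        ((rinv s (t n) z * (1 - s z * rinv s (t n) z)) * Q z)‖) atTop (𝓝 0) :=
      tendsto_of_tendsto_of_tendsto_of_le_of_le tendsto_const_nhds hsum (fun _ => zero_le) hkey
    have h6 := (ENNReal.tendsto_toReal ENNReal.zero_ne_top).comp h5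
    simp only [Function.comp_def, ENNReal.toReal_ofReal (norm_nonneg _),
      ENNReal.toReal_zero] at h6
    exact h6
  have hlim := hgood.add hbad
  simp only [hn, add_zero] at hlim
  exact (tendsto_nhds_unique hlim tendsto_const_nhds)

end main

end Vale.Agent.P301.H479
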